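import Mathlib

/-!
# P137, Q1 for the uncentered operator: definitions

`E` is the Euclidean space `ℝ^d`, that is, a real inner product space of finite dimension `d`, with
its Lebesgue measure `volume`.
-/

namespace Vale.Agent.Lib.P137G

open MeasureTheory Metric
open scoped ENNReal ContDiff

variable {E : Type*} [NormedAddCommGroup E] [InnerProductSpace ℝ E] [FiniteDimensional ℝ E]
  [MeasurableSpace E] [BorelSpace E]

/-- The uncentered maximal function of `f` at `x`: the supremum, over all (open) Euclidean balls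
`B` containing `x`, of the average `(∫_B |f|) / |B|`. -/
noncomputable def uncentered (f : E → ℝ) (x : E) : ℝ≥0∞ :=
  ⨆ B ∈ {B : Set E | x ∈ B ∧ ∃ z r, B = ball z r}, (∫⁻ y in B, ‖f y‖ₑ) / volume B

/-- `G` is the weak (distributional) gradient of `u`: `∫ u ∂_v φ = - ∫ ⟨G, v⟩ φ` for every smooth
compactly supported `φ : E → ℝ` and every direction `v`. -/
def WeakGradient (u : E → ℝ) (G : E → E) : Prop :=
  ∀ φ : E → ℝ, ContDiff ℝ ∞ φ → HasCompactSupport φ → ∀ v : E,
    ∫ x, u x * fderiv ℝ φ x v = -∫ x, inner ℝ (G x) v * φ x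

/-- The total variation of (the distributional gradient of) `u`, in `[0, ∞]`: the supremum of
`∫ u div Φ` over all smooth compactly supported vector fields `Φ` with `|Φ| ≤ 1`; the divergence
`div Φ` is the trace of the derivative of `Φ`. -/
noncomputable def totalVariation (u : E → ℝ) : ℝ≥0∞ :=
  ⨆ Φ ∈ {Φ : E → E | ContDiff ℝ ∞ Φ ∧ HasCompactSupport Φ ∧ ∀ x, ‖Φ x‖ ≤ 1},
    ENNReal.ofReal (∫ x, u x * LinearMap.trace ℝ E (fderiv ℝ Φ x))

end Vale.Agent.Lib.P137G
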