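import Vale.Agent.Results.P137.UncenteredBV
import Vale.Agent.Lib.P137G.Defs

/-!
# P137, Q1 for the uncentered operator: bridge to the landed theorem
-/

namespace Vale.Agent.Lib.P137G

open MeasureTheory Metric Vale.Agent.Results.P137.UncenteredBV
open scoped ENNReal ContDiff NNReal

section Transport

variable {E E' : Type*} [NormedAddCommGroup E] [InnerProductSpace ℝ E] [FiniteDimensional ℝ E]
  [MeasurableSpace E] [BorelSpace E] [NormedAddCommGroup E'] [InnerProductSpace ℝ E']
  [FiniteDimensional ℝ E'] [MeasurableSpace E'] [BorelSpace E'] (L : E ≃ₗᵢ[ℝ] E')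

theorem emb : MeasurableEmbedding L := L.toHomeomorph.measurableEmbedding

theorem int_comp {F : Type*} [NormedAddCommGroup F] [NormedSpace ℝ F] (g : E' → F) :
    ∫ x, g (L x) = ∫ y, g y :=
  L.measurePreserving.integral_comp (emb L) g

theorem uncentered_le (f : E → ℝ) (x : E) :
    uncentered (fun y => f (L.symm y)) (L x) ≤ uncentered f x := by
  unfold uncentered
  refine iSup₂_le ?_
  rintro B ⟨hx, z, r, rfl⟩
  have hpre : L ⁻¹' ball z r = ball (L.symm z) r := L.preimage_ball z r
  have hx' : x ∈ ball (L.symm z) r := by rw [← hpre]; exact hx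
  refine le_trans (le_of_eq ?_) (le_iSup₂_of_le (ball (L.symm z) r) ⟨hx', _, r, rfl⟩ le_rfl)
  have h1 := L.measurePreserving.setLIntegral_comp_preimage_emb (emb L)
    (fun y => ‖f (L.symm y)‖ₑ) (ball z r)
  have h2 := L.measurePreserving.measure_preimage_emb (emb L) (ball z r)
  rw [hpre] at h1 h2
  rw [← h1, ← h2]
  simp only [LinearIsometryEquiv.symm_apply_apply]

theorem uncentered_transport (f : E → ℝ) (x : E) :
    uncentered (fun y => f (L.symm y)) (L x) = uncentered f x := by
  refine le_antisymm (uncentered_le L f x) ?_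
  have h := uncentered_le L.symm (fun y => f (L.symm y)) (L x)
  simpa only [LinearIsometryEquiv.symm_symm, LinearIsometryEquiv.symm_apply_apply] using h

theorem weak_transport {u : E → ℝ} {G : E → E} (h : WeakGradient u G) :
    WeakGradient (fun y => u (L.symm y)) (fun y => L (G (L.symm y))) := by
  intro φ hφ hc v
  have hc' : HasCompactSupport (fun x => φ (L x)) := hc.comp_homeomorph L.toHomeomorph
  have hφ' : ContDiff ℝ ∞ (fun x => φ (L x)) := hφ.comp L.contDiff
  have h1 := h (fun x => φ (L x)) hφ' hc' (L.symm v)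
  have h2 : ∀ x, fderiv ℝ (fun x => φ (L x)) x (L.symm v) = fderiv ℝ φ (L x) v := by
    intro x
    have h3 : HasFDerivAt (fun x => φ (L x)) ((fderiv ℝ φ (L x)).comp
        (L.toContinuousLinearEquiv : E →L[ℝ] E')) x :=
      ((hφ.differentiable (by simp) (L x)).hasFDerivAt).comp x
        (L.toContinuousLinearEquiv : E →L[ℝ] E').hasFDerivAt
    rw [h3.fderiv]
    simp
  have h4 : ∀ x, inner ℝ (G x) (L.symm v) = inner ℝ (L (G x)) v := by
    intro x
    rw [← L.inner_map_map, L.apply_symm_apply]
  simp only [h2, h4] at h1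
  rw [← int_comp L, ← int_comp L]
  simpa only [LinearIsometryEquiv.symm_apply_apply] using h1

theorem variation_le (u : E → ℝ) :
    totalVariation (fun y => u (L.symm y)) ≤ totalVariation u := by
  unfold totalVariation
  refine iSup₂_le ?_
  rintro Φ ⟨hΦ, hc, hn⟩
  refine le_trans (le_of_eq ?_) (le_iSup₂_of_le (fun x => L.symm (Φ (L x))) ⟨?_, ?_, ?_⟩ le_rfl)
  · rw [← int_comp L]
    congr 1
    refine integral_congr_ae (Filter.Eventually.of_forall fun x => ?_)
    have h3 : HasFDerivAt (fun x => L.symm (Φ (L x)))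
        ((L.symm.toContinuousLinearEquiv : E' →L[ℝ] E).comp ((fderiv ℝ Φ (L x)).comp
          (L.toContinuousLinearEquiv : E →L[ℝ] E'))) x :=
      (L.symm.toContinuousLinearEquiv : E' →L[ℝ] E).hasFDerivAt.comp x
        (((hΦ.differentiable (by simp) (L x)).hasFDerivAt).comp x
          (L.toContinuousLinearEquiv : E →L[ℝ] E').hasFDerivAt)
    have h4 : LinearMap.trace ℝ E' (fderiv ℝ Φ (L x))
        = LinearMap.trace ℝ E (fderiv ℝ (fun x => L.symm (Φ (L x))) x) := by
      rw [h3.fderiv, ← LinearMap.trace_conj' _ L.symm.toLinearEquiv]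
      rfl
    simp only [LinearIsometryEquiv.symm_apply_apply]
    rw [h4]
  · exact L.symm.contDiff.comp (hΦ.comp L.contDiff)
  · exact (hc.comp_homeomorph L.toHomeomorph).comp_left (map_zero L.symm)
  · intro x
    rw [LinearIsometryEquiv.norm_map]
    exact hn _

theorem variation_transport (u : E → ℝ) :
    totalVariation (fun y => u (L.symm y)) = totalVariation u := by
  refine le_antisymm (variation_le L u) ?_
  have h := variation_le L.symm (fun y => u (L.symm y))
  simpa only [LinearIsometryEquiv.symm_symm, LinearIsometryEquiv.symm_apply_apply] using h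

end Transport

variable {d : ℕ}

theorem uncentered_eq (f : EuclideanSpace ℝ (Fin d) → ℝ) (x : EuclideanSpace ℝ (Fin d)) :
    uncentered f x = uncenteredMaximal f x := by
  unfold uncentered uncenteredMaximal
  apply le_antisymm
  · refine iSup₂_le ?_
    rintro B ⟨hx, z, r, rfl⟩
    refine le_trans (le_of_eq ?_) (le_iSup₂_of_le z r (le_iSup_of_le hx le_rfl))
    simp only [Real.enorm_eq_ofReal_abs]
  · refine iSup_le fun z => iSup_le fun r => iSup_le fun hx => ?_
    refine le_trans (le_of_eq ?_) (le_iSup₂_of_le (ball z r) ⟨hx, z, r, rfl⟩ le_rfl)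
    simp only [Real.enorm_eq_ofReal_abs]

theorem weak_to {u : EuclideanSpace ℝ (Fin d) → ℝ}
    {G : EuclideanSpace ℝ (Fin d) → EuclideanSpace ℝ (Fin d)} (h : WeakGradient u G) :
    IsWeakGradient u G := by
  intro φ hφ hc i
  rw [h φ hφ hc (EuclideanSpace.single i 1)]
  congr 1
  refine integral_congr_ae (Filter.Eventually.of_forall fun x => ?_)
  simp only
  rw [real_inner_comm, EuclideanSpace.inner_single_left]
  simp

theorem weak_from {u : EuclideanSpace ℝ (Fin d) → ℝ}
    {G : EuclideanSpace ℝ (Fin d) → EuclideanSpace ℝ (Fin d)} (hu : LocallyIntegrable u)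
    (hG : LocallyIntegrable G) (h : IsWeakGradient u G) : WeakGradient u G := by
  intro φ hφ hc v
  have hv : v = ∑ i, v i • (EuclideanSpace.single i (1 : ℝ)) := by
    ext j
    simp [Finset.sum_apply, Pi.single_apply]
  have h1 : ∀ i, Integrable (fun x => u x * fderiv ℝ φ x (EuclideanSpace.single i 1)) := by
    intro i
    have h2 : Continuous (fun x => fderiv ℝ φ x (EuclideanSpace.single i 1)) :=
      (hφ.continuous_fderiv (by simp)).clm_apply continuous_const
    have h3 : HasCompactSupport (fun x => fderiv ℝ φ x (EuclideanSpace.single i 1)) :=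
      (hc.fderiv (𝕜 := ℝ)).comp_left
        (g := fun T : EuclideanSpace ℝ (Fin d) →L[ℝ] ℝ => T (EuclideanSpace.single i 1)) rfl
    exact hu.integrable_smul_right_of_hasCompactSupport h2 h3
  have h4 : ∀ i, Integrable (fun x => G x i * φ x) := by
    intro i
    have h5 : Integrable (fun x => φ x • G x) :=
      hG.integrable_smul_left_of_hasCompactSupport hφ.continuous hc
    have h6 := (EuclideanSpace.proj i : EuclideanSpace ℝ (Fin d) →L[ℝ] ℝ).integrable_comp h5
    refine h6.congr (Filter.Eventually.of_forall fun x => ?_)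
    simp [mul_comm]
  have h7 : ∀ x, u x * fderiv ℝ φ x v
      = ∑ i, v i * (u x * fderiv ℝ φ x (EuclideanSpace.single i 1)) := by
    intro x
    conv_lhs => rw [hv, map_sum, Finset.mul_sum]
    refine Finset.sum_congr rfl fun i _ => ?_
    rw [map_smul, smul_eq_mul]
    ring
  have h8 : ∀ x, inner ℝ (G x) v * φ x = ∑ i, v i * (G x i * φ x) := by
    intro x
    have : inner ℝ (G x) v = ∑ i, v i * G x i := by
      simp [PiLp.inner_apply]
    rw [this, Finset.sum_mul]
    exact Finset.sum_congr rfl fun i _ => mul_assoc _ _ _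
  simp only [h7, h8]
  rw [integral_finsetSum _ fun i _ => (h1 i).const_mul _,
    integral_finsetSum _ fun i _ => (h4 i).const_mul _, ← Finset.sum_neg_distrib]
  refine Finset.sum_congr rfl fun i _ => ?_
  rw [integral_const_mul, integral_const_mul, h φ hφ hc i]
  ring

theorem div_eq {Φ : EuclideanSpace ℝ (Fin d) → EuclideanSpace ℝ (Fin d)} (hΦ : ContDiff ℝ ∞ Φ)
    (x : EuclideanSpace ℝ (Fin d)) :
    LinearMap.trace ℝ (EuclideanSpace ℝ (Fin d)) (fderiv ℝ Φ x) = divergence Φ x := by
  unfold divergence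
  rw [LinearMap.trace_eq_sum_inner _ (EuclideanSpace.basisFun (Fin d) ℝ)]
  refine Finset.sum_congr rfl fun i _ => ?_
  have h1 : HasFDerivAt Φ (fderiv ℝ Φ x) x := (hΦ.differentiable (by simp) x).hasFDerivAt
  have h2 := (EuclideanSpace.proj i : EuclideanSpace ℝ (Fin d) →L[ℝ] ℝ).hasFDerivAt.comp x h1
  have h3 : fderiv ℝ (fun y => Φ y i) x
      = (EuclideanSpace.proj i : EuclideanSpace ℝ (Fin d) →L[ℝ] ℝ).comp (fderiv ℝ Φ x) := h2.fderiv
  rw [h3, EuclideanSpace.basisFun_apply, EuclideanSpace.inner_single_left]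
  simp

theorem variation_le_iff {u : EuclideanSpace ℝ (Fin d) → ℝ} {V : ℝ} (hV : 0 ≤ V) :
    totalVariation u ≤ ENNReal.ofReal V ↔ VariationLE u V := by
  unfold totalVariation
  constructor
  · intro h Φ hΦ hc hn
    have h1 := (iSup₂_le_iff.1 h) Φ ⟨hΦ, hc, hn⟩
    rw [ENNReal.ofReal_le_ofReal_iff hV] at h1
    simpa only [div_eq hΦ] using h1
  · intro h
    refine iSup₂_le ?_
    rintro Φ ⟨hΦ, hc, hn⟩
    refine ENNReal.ofReal_le_ofReal ?_
    simp only [div_eq hΦ]
    exact h Φ hΦ hc hn

theorem main (d : ℕ) (hd : 1 ≤ d) : ∃ C : ℝ≥0,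
    ∀ (E : Type*) [NormedAddCommGroup E] [InnerProductSpace ℝ E] [FiniteDimensional ℝ E]
      [MeasurableSpace E] [BorelSpace E], Module.finrank ℝ E = d →
      (∀ (f : E → ℝ) (F : E → E), Integrable f → Integrable F → WeakGradient f F →
        ∃ (u : E → ℝ) (G : E → E),
          (∀ x, 0 ≤ u x) ∧ (∀ᵐ x, uncentered f x = ENNReal.ofReal (u x)) ∧
          LocallyIntegrable u ∧ Integrable G ∧ WeakGradient u G ∧
          ∫ x, ‖G x‖ ≤ C * ∫ x, ‖F x‖) ∧
      (∀ f : E → ℝ, Integrable f → totalVariation f < ⊤ →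
        ∃ u : E → ℝ,
          (∀ x, 0 ≤ u x) ∧ (∀ᵐ x, uncentered f x = ENNReal.ofReal (u x)) ∧
          LocallyIntegrable u ∧ totalVariation u ≤ C * totalVariation f) := by
  obtain ⟨C, hC, h1, h2⟩ := Vale.Agent.Results.P137.UncenteredBV.result d hd
  refine ⟨⟨C, hC.le⟩, fun E _ _ _ _ _ hE => ?_⟩
  let L : E ≃ₗᵢ[ℝ] EuclideanSpace ℝ (Fin d) :=
    ((stdOrthonormalBasis ℝ E).reindex (finCongr hE)).repr
  have hmp : MeasurePreserving L.symm volume volume := L.symm.measurePreserving
  have hInt : ∀ {F : Type} [NormedAddCommGroup F] (g : E → F), Integrable g →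
      Integrable (fun y => g (L.symm y)) := fun g hg => hmp.integrable_comp_of_integrable hg
  -- the transported maximal function is a.e. finite
  have key : ∀ f : E → ℝ, (∀ᵐ y, uncenteredMaximal (fun y => f (L.symm y)) y < ⊤) →
      LocallyIntegrable (fun y => (uncenteredMaximal (fun y => f (L.symm y)) y).toReal) →
      (∀ᵐ x, uncentered f x = ENNReal.ofReal
        ((uncenteredMaximal (fun y => f (L.symm y)) (L x)).toReal)) ∧
      LocallyIntegrable (fun x : E => (uncenteredMaximal (fun y => f (L.symm y)) (L x)).toReal) := by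
    intro f hfin hloc
    constructor
    · have h3 := L.measurePreserving.quasiMeasurePreserving.ae hfin
      filter_upwards [h3] with x hx
      rw [ENNReal.ofReal_toReal hx.ne, ← uncentered_transport L f x, uncentered_eq]
    · intro x
      obtain ⟨U, hU, hU2⟩ := hloc (L x)
      refine ⟨L ⁻¹' U, L.continuous.continuousAt.preimage_mem_nhds hU, ?_⟩
      exact (L.measurePreserving.integrableOn_comp_preimage (emb L)).2 hU2
  constructor
  · intro f F hf hF hw
    have hF' : Integrable (fun y => L (F (L.symm y))) :=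
      (L.toContinuousLinearEquiv : E →L[ℝ] EuclideanSpace ℝ (Fin d)).integrable_comp
        (hmp.integrable_comp_of_integrable hF)
    obtain ⟨hfin, hloc, G, hG, hwG, hle⟩ := h1 (fun y => f (L.symm y))
      (fun y => L (F (L.symm y))) (hmp.integrable_comp_of_integrable hf) hF'
      (weak_to (weak_transport L hw))
    obtain ⟨k1, k2⟩ := key f hfin hloc
    have hw2 := weak_transport L.symm (weak_from hloc hG.locallyIntegrable hwG)
    refine ⟨fun x => (uncenteredMaximal (fun y => f (L.symm y)) (L x)).toReal,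
      fun x => L.symm (G (L x)), fun x => ENNReal.toReal_nonneg, k1, k2, ?_, ?_, ?_⟩
    · exact (L.symm.toContinuousLinearEquiv : EuclideanSpace ℝ (Fin d) →L[ℝ] E).integrable_comp
        (L.measurePreserving.integrable_comp_of_integrable hG)
    · simpa only [LinearIsometryEquiv.symm_symm] using hw2
    · simp only [LinearIsometryEquiv.norm_map] at hle ⊢
      have e1 : ∫ x, ‖G (L x)‖ = ∫ y, ‖G y‖ := int_comp L fun y => ‖G y‖
      have e2 : ∫ y, ‖F (L.symm y)‖ = ∫ x, ‖F x‖ := int_comp L.symm fun x => ‖F x‖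
      rw [e2] at hle
      rw [e1]
      exact hle
  · intro f hf hvar
    have hvar' : totalVariation (fun y => f (L.symm y)) < ⊤ := by
      rwa [variation_transport]
    have hV : VariationLE (fun y => f (L.symm y)) (totalVariation f).toReal :=
      (variation_le_iff ENNReal.toReal_nonneg).1 (by
        rw [ENNReal.ofReal_toReal hvar.ne, variation_transport])
    obtain ⟨hfin, hloc, hle⟩ := h2 _ _ (hmp.integrable_comp_of_integrable hf) hV
    obtain ⟨k1, k2⟩ := key f hfin hloc
    refine ⟨fun x => (uncenteredMaximal (fun y => f (L.symm y)) (L x)).toReal,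
      fun x => ENNReal.toReal_nonneg, k1, k2, ?_⟩
    have e1 := variation_transport L.symm
      (fun y => (uncenteredMaximal (fun y => f (L.symm y)) y).toReal)
    simp only [LinearIsometryEquiv.symm_symm] at e1
    rw [e1]
    refine ((variation_le_iff (by positivity)).2 hle).trans (le_of_eq ?_)
    rw [ENNReal.ofReal_mul hC.le, ENNReal.ofReal_toReal hvar.ne]
    congr 1
    exact ENNReal.ofReal_eq_coe_nnreal hC.le

end Vale.Agent.Lib.P137G
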